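import Vale.Agent.P271.H242.Cmin
import Vale.Agent.P271.H989.Np1
import Vale.Agent.P271.H879.Chart
import Vale.Agent.P271.Inst.Ev
import Vale.Agent.P271.Inst.Hom
import Vale.Agent.P271.H604.OfDat

/-!
# P271, [CMIN] (helper242): uniform (A5) for the exponent sets of a graded cone
-/

namespace Vale.Agent.P271.H242

open MeasureTheory Metric Set Topology Filter Finsupp
open Vale.Agent.P271.Sch Vale.Agent.P271.H741 Vale.Agent.P271.Inst Vale.Agent.P271.H989
open Vale.Agent.P271.Zorn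
open scoped ENNReal

section

variable {R : Type} [CommRing R] [Algebra ℂ R] {φ : R →ₐ[ℂ] ℂ} {m : ℕ}

/-- The differential at `φ` of an element of `(ker φ)²` is zero. -/
theorem fderiv_sq (c : Chart φ m) {s : R} (hs : s ∈ (RingHom.ker φ) ^ 2) :
    HasFDerivAt (fun x => c.ψ x s) (0 : (Fin m → ℂ) →L[ℂ] ℂ) 0 := by
  have h0 : (0 : Fin m → ℂ) ∈ ball (0 : Fin m → ℂ) c.ρ := mem_ball_self c.ρ_pos
  rw [pow_two] at hs
  refine Submodule.mul_induction_on hs (fun a ha b hb => ?_) fun x y hx hy => ?_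
  · have hda := ((c.holo a) 0 h0).differentiableAt.hasFDerivAt
    have hdb := ((c.holo b) 0 h0).differentiableAt.hasFDerivAt
    have h1 := hda.mul hdb
    have ha0 : c.ψ 0 a = 0 := by rw [c.zero]; exact ha
    have hb0 : c.ψ 0 b = 0 := by rw [c.zero]; exact hb
    have h2 : c.ψ 0 a • fderiv ℂ (fun x => c.ψ x b) 0 + c.ψ 0 b • fderiv ℂ (fun x => c.ψ x a) 0 =
        0 := by
      ext v
      change c.ψ 0 a * _ + c.ψ 0 b * _ = 0
      rw [ha0, hb0, zero_mul, zero_mul, add_zero]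
    rw [h2] at h1
    refine h1.congr_of_eventuallyEq (Eventually.of_forall fun x => ?_)
    simp
  · have := hx.add hy
    rw [add_zero] at this
    refine this.congr_of_eventuallyEq (Eventually.of_forall fun x => ?_)
    simp

/-- Parameters spanning the cotangent space are local coordinates in a chart. -/
theorem injective_fderiv (c : Chart φ m) {z : Fin m → R}
    (hz : LinearMap.range (dl φ) ≤ Submodule.span ℂ (Set.range fun i => dl φ (z i))) :
    Function.Injective (fderiv ℂ (fun x i => c.ψ x (z i)) 0) := by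
  have h0 : (0 : Fin m → ℂ) ∈ ball (0 : Fin m → ℂ) c.ρ := mem_ball_self c.ρ_pos
  have hd : ∀ s : R, DifferentiableAt ℂ (fun x => c.ψ x s) 0 := fun s =>
    ((c.holo s) 0 h0).differentiableAt
  rw [← ContinuousLinearMap.coe_coe, ← LinearMap.ker_eq_bot, LinearMap.ker_eq_bot']
  intro v hv
  have hv' : ∀ i, fderiv ℂ (fun x => c.ψ x (z i)) 0 v = 0 := by
    intro i
    have h1 : HasFDerivAt (fun x i => c.ψ x (z i))
        (ContinuousLinearMap.pi fun i => fderiv ℂ (fun x => c.ψ x (z i)) 0) 0 :=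
      hasFDerivAt_pi.2 fun i => (hd (z i)).hasFDerivAt
    rw [h1.fderiv] at hv
    exact congrFun hv i
  funext j
  have hmem : dl φ (c.t j) ∈ Submodule.span ℂ (Set.range fun i => dl φ (z i)) := hz ⟨_, rfl⟩
  obtain ⟨a, ha⟩ := (Submodule.mem_span_range_iff_exists_fun ℂ).1 hmem
  -- `t j - ∑ a i z i` is constant modulo `(ker φ)²`
  have h3 : dl φ (c.t j - ∑ i, a i • z i) = 0 := by
    rw [map_sub, map_sum, ← ha, sub_eq_zero]
    exact Finset.sum_congr rfl fun i _ => (map_smul _ _ _).symm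
  set s := c.t j - ∑ i, a i • z i with hs
  rw [dl_apply, Ideal.Quotient.eq_zero_iff_mem] at h3
  have h4 := fderiv_sq c h3
  have h5 : HasFDerivAt (fun x => c.ψ x s) (0 : (Fin m → ℂ) →L[ℂ] ℂ) 0 := by
    have h6 := h4.add_const (φ s)
    refine h6.congr_of_eventuallyEq (Eventually.of_forall fun x => ?_)
    simp
  have h7 : HasFDerivAt (fun x => c.ψ x s) (fderiv ℂ (fun x => c.ψ x (c.t j)) 0 -
      ∑ i, a i • fderiv ℂ (fun x => c.ψ x (z i)) 0) 0 := by
    have h8 := (hd (c.t j)).hasFDerivAt.sub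
      (HasFDerivAt.sum (u := Finset.univ) fun i _ => ((hd (z i)).hasFDerivAt.const_smul (a i)))
    refine h8.congr_of_eventuallyEq (Eventually.of_forall fun x => ?_)
    simp [hs]
  have h9 := congrArg (fun L : (Fin m → ℂ) →L[ℂ] ℂ => L v) (h5.unique h7)
  have h10 : fderiv ℂ (fun x => c.ψ x (c.t j)) 0 v = v j := by
    have h11 : (fun x => c.ψ x (c.t j)) =ᶠ[𝓝 0] fun x => x j := by
      filter_upwards [isOpen_ball.mem_nhds h0] with x hx
      exact c.coord x hx j
    rw [h11.fderiv_eq]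
    have h12 : HasFDerivAt (fun x : Fin m → ℂ => x j)
        (ContinuousLinearMap.proj (R := ℂ) (φ := fun _ : Fin m => ℂ) j) 0 :=
      (ContinuousLinearMap.proj (R := ℂ) (φ := fun _ : Fin m => ℂ) j).hasFDerivAt
    rw [h12.fderiv]
    rfl
  simp only [_root_.zero_apply, _root_.sub_apply, h10,
    _root_.sum_apply, _root_.smul_apply, hv', smul_zero,
    Finset.sum_const_zero, sub_zero] at h9
  exact h9.symm

end

/-- **[CMIN]** for the exponent sets of a graded cone: there is `D` such that `t[f]` belongs to the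
exponent set at `φ` for all nonzero `f ∈ A M` and all `t ≥ 0` with `t * (D * M) < 1`. -/
theorem cmin_ES {n : ℕ} (C : GCone n) {φ : C.Pt} (hφ : GCone.NV φ) (c : Chart φ (n + 1)) :
    ∃ D : ℕ, 0 < D ∧ ∀ {H : Type*} (r : H → C.R) (h : H) (M : ℕ), r h ∈ C.A M → r h ≠ 0 →
      ∀ t : ℝ, 0 ≤ t → t * (D * M) < 1 → single h t ∈ ES (n + 1) r φ := by
  obtain ⟨N0, hN0, hz⟩ := exists_noether C φ hφ
  obtain ⟨z, hzA, hzφ, hfin, hinj, hdl⟩ := hz N0 hN0 dvd_rfl
  have h0 : (0 : Fin (n + 1) → ℂ) ∈ ball (0 : Fin (n + 1) → ℂ) c.ρ := mem_ball_self c.ρ_pos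
  obtain ⟨D, hD⟩ := cmin C.A hN0 hzA hfin c.ψ (p := 0)
    (AnalyticAt.contDiffAt (by
      rw [analyticAt_pi_iff]
      exact fun i => (c.holo (z i)) 0 h0))
    (injective_fderiv c hdl) (fun g => by
      refine ⟨‖c.ψ 0 g‖ + 1, ?_⟩
      have h1 : ContinuousAt (fun x => c.ψ x g) 0 := ((c.holo g) 0 h0).continuousAt
      filter_upwards [h1.norm.eventually (gt_mem_nhds (lt_add_one _))] with x hx
      exact hx.le)
  refine ⟨D + 1, Nat.succ_pos _, fun {H} r h M hM hne t ht htM => ?_⟩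
  have htM' : t * (D * M) < N0 := by
    have h1 : (1 : ℝ) ≤ N0 := by exact_mod_cast hN0
    have h2 : t * (D * M) ≤ t * ((D + 1 : ℕ) * M) := by
      push_cast
      have : (0 : ℝ) ≤ t * M := by positivity
      nlinarith
    linarith
  obtain ⟨U, hU, hlt⟩ := hD M (r h) hM hne t ht htM'
  rw [ES_eq_PP c]
  refine ⟨U, hU, ?_⟩
  refine lt_of_le_of_lt (le_of_eq ?_) hlt
  refine lintegral_congr fun x => ?_
  unfold wt
  rw [lg_single]

/-- Existence of a chart at every point of the cone outside the vertex. -/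
theorem nonempty_chart {n : ℕ} (C : GCone n) {φ : C.Pt} (hφ : GCone.NV φ) :
    Nonempty (Chart φ (n + 1)) := by
  have := C.finiteType
  have hmax : (RingHom.ker φ).IsMaximal := ker_isMaximal φ
  obtain ⟨hreg, hdim⟩ := C.regular (RingHom.ker φ) hφ
  obtain ⟨c, -⟩ := H879.exists_chart φ (RingHom.ker φ) (fun r => RingHom.mem_ker) hreg hdim
  exact ⟨c⟩

theorem single_mem_extP {R : Type*} [CommRing R] {H : Submonoid R} {P : Set (H →₀ ℝ)} {h : H}
    {t : ℝ} (ht : single h t ∈ P) : single (h : R) t ∈ Exp.extP H P := by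
  rw [Exp.mem_extP_iff]
  exact ⟨single h t, ht, mapDomain_single⟩

/-- **[CMIN]** in the form of the exponent sets on the ring: `t[f]` is in the exponent set of `φ`
for `0 ≠ f ∈ A M`, `t ≥ 0`, `t * (D * M) < 1`; `D` depends only on `φ`. -/
theorem cmin_extP {n : ℕ} (C : GCone n) {φ : C.Pt} (hφ : GCone.NV φ) :
    ∃ D : ℕ, 0 < D ∧ ∀ (M : ℕ) (f : C.R), f ∈ C.A M → f ≠ 0 → ∀ t : ℝ, 0 ≤ t →
      t * (D * M) < 1 →
      single f t ∈ Exp.extP (HM C) (ES (n + 1) (fun h : HM C => (h : C.R)) φ) := by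
  obtain ⟨c⟩ := nonempty_chart C hφ
  obtain ⟨D, hD, h⟩ := cmin_ES C hφ c
  refine ⟨D, hD, fun M f hf hf0 t ht htM => ?_⟩
  have hfH : f ∈ HM C := ⟨hf0, M, hf⟩
  exact single_mem_extP (h := ⟨f, hfH⟩)
    (h (fun h : HM C => (h : C.R)) ⟨f, hfH⟩ M hf hf0 t ht htM)

end Vale.Agent.P271.H242
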