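import Mathlib

/-!
# P271, [CMIN] (helper242), algebraic part

`R` a graded domain, finite over `k[z_1, …, z_r]`, `z_i` homogeneous of degree `N`.  There is `D`
such that every nonzero homogeneous `f` of degree `M` divides `P(z)` for some nonzero polynomial `P`
with `N * deg P ≤ D * M`.
-/

namespace Vale.Agent.P271.H242

open MvPolynomial DirectSum

variable {k R : Type*} [Field k] [CommRing R] [Algebra k R] (A : ℕ → Submodule k R)
  [GradedAlgebra A]

theorem aeval_monomial_mem {r N : ℕ} {z : Fin r → R} (hz : ∀ i, z i ∈ A N) (s : Fin r →₀ ℕ)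
    (a : k) : aeval z (monomial s a) ∈ A (N * s.degree) := by
  rw [aeval_monomial]
  have h1 : (s.prod fun i e => z i ^ e) ∈ A (N * s.degree) := by
    have h2 := SetLike.prod_mem_graded (A := A) (fun i : Fin r => N * s i) (fun i => z i ^ s i)
      (F := s.support) (fun i _ => by
        have := SetLike.pow_mem_graded (s i) (hz i)
        rwa [smul_eq_mul, mul_comm] at this)
    rw [Finsupp.degree_apply, Finset.mul_sum]
    exact h2
  rw [← Algebra.smul_def]
  exact Submodule.smul_mem _ _ h1

/-- the graded components of `P(z)` are polynomials in `z`. -/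
theorem exists_proj {r N : ℕ} {z : Fin r → R} (hz : ∀ i, z i ∈ A N) (p : MvPolynomial (Fin r) k)
    (q : ℕ) : ∃ P : MvPolynomial (Fin r) k, N * P.totalDegree ≤ q ∧
      aeval z P = GradedRing.proj A q (aeval z p) := by
  classical
  refine ⟨∑ s ∈ p.support with N * s.degree = q, monomial s (coeff s p), ?_, ?_⟩
  · rcases Nat.eq_zero_or_pos N with rfl | hN
    · simp
    have h1 : (∑ s ∈ p.support with N * s.degree = q, monomial s (coeff s p)).totalDegree ≤
        q / N := by
      refine totalDegree_finsetSum_le fun s hs => ?_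
      rw [Finset.mem_filter] at hs
      refine (totalDegree_monomial_le _ _).trans ?_
      rw [Nat.le_div_iff_mul_le hN, ← hs.2, mul_comm]
      rfl
    calc N * _ ≤ N * (q / N) := Nat.mul_le_mul_left _ h1
      _ ≤ q := Nat.mul_div_le _ _
  · conv_rhs => rw [p.as_sum]
    rw [map_sum, map_sum, map_sum, Finset.sum_filter]
    refine Finset.sum_congr rfl fun s _ => ?_
    have hmem := aeval_monomial_mem A hz s (coeff s p)
    rw [GradedRing.proj_apply]
    split_ifs with h
    · rw [decompose_of_mem A (h ▸ hmem), of_eq_same]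
    · rw [decompose_of_mem A hmem, of_eq_of_ne _ _ _ (fun h' => h h'.symm)]
      rfl

theorem exists_poly_mul [IsDomain R] {r N : ℕ} {z : Fin r → R} (hz : ∀ i, z i ∈ A N)
    (hfin : (aeval z : MvPolynomial (Fin r) k →ₐ[k] R).toRingHom.Finite) :
    ∃ D : ℕ, ∀ M, ∀ f ∈ A M, f ≠ 0 → ∃ P : MvPolynomial (Fin r) k, P ≠ 0 ∧
      N * P.totalDegree ≤ D * M ∧ ∃ g : R, aeval z P = f * g := by
  classical
  let _ : Algebra (MvPolynomial (Fin r) k) R :=
    (aeval z : MvPolynomial (Fin r) k →ₐ[k] R).toRingHom.toAlgebra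
  have _ : Module.Finite (MvPolynomial (Fin r) k) R := hfin
  have halg : ∀ p : MvPolynomial (Fin r) k, algebraMap (MvPolynomial (Fin r) k) R p =
      aeval z p := fun _ => rfl
  refine ⟨(⊤ : Submodule (MvPolynomial (Fin r) k) R).spanFinrank, fun M f hf hf0 => ?_⟩
  obtain ⟨p, hmonic, hdeg, hp⟩ := LinearMap.exists_monic_and_natDegree_eq_and_aeval_eq_zero
    (MvPolynomial (Fin r) k) (Algebra.lmul (MvPolynomial (Fin r) k) R f)
  set D := (⊤ : Submodule (MvPolynomial (Fin r) k) R).spanFinrank with hD
  have hp' : Polynomial.aeval f p = 0 := by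
    have h1 := congrArg (fun φ : Module.End (MvPolynomial (Fin r) k) R => φ 1) hp
    rw [Polynomial.aeval_algHom_apply] at h1
    simpa using h1
  have hsum : ∑ i ∈ Finset.range (D + 1), aeval z (p.coeff i) * f ^ i = 0 := by
    rw [← hp', Polynomial.aeval_eq_sum_range, hdeg]
    refine Finset.sum_congr rfl fun i _ => ?_
    rw [Algebra.smul_def, halg]
  -- the component of degree `M * D`
  have hcomp : ∑ i ∈ Finset.range (D + 1),
      GradedRing.proj A (M * (D - i)) (aeval z (p.coeff i)) * f ^ i = 0 := by
    have h1 := congrArg (GradedRing.proj A (M * D)) hsum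
    rw [map_sum, map_zero] at h1
    rw [← h1]
    refine Finset.sum_congr rfl fun i hi => ?_
    rw [Finset.mem_range] at hi
    have hfi : f ^ i ∈ A (i * M) := by
      have := SetLike.pow_mem_graded i hf
      rwa [smul_eq_mul] at this
    have hle : i * M ≤ M * D := by
      rw [mul_comm]
      exact Nat.mul_le_mul_left _ (by omega)
    rw [GradedRing.proj_apply, GradedRing.proj_apply,
      DirectSum.coe_decompose_mul_of_right_mem_of_le A hfi hle]
    rw [mul_comm i M, ← Nat.mul_sub]
  choose P hPdeg hP using fun i => exists_proj A hz (p.coeff i) (M * (D - i))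
  -- the smallest `j` with a nonzero coefficient
  have hlast : aeval z (P D) = 1 := by
    rw [hP, Nat.sub_self, mul_zero]
    have : p.coeff D = 1 := by rw [← hdeg]; exact hmonic
    rw [this, map_one, GradedRing.proj_apply, decompose_of_mem A SetLike.GradedOne.one_mem,
      of_eq_same]
  have hex : ∃ j, aeval z (P j) ≠ 0 := ⟨D, by rw [hlast]; exact one_ne_zero⟩
  set j := Nat.find hex with hj
  have hj0 : aeval z (P j) ≠ 0 := Nat.find_spec hex
  have hjmin : ∀ i < j, aeval z (P i) = 0 := fun i hi => by
    by_contra h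
    exact Nat.find_min hex hi h
  have hjD : j ≤ D := Nat.find_min' hex (by rw [hlast]; exact one_ne_zero)
  simp only [← hP] at hcomp
  have hsplit : ∑ i ∈ Finset.range (D + 1), aeval z (P i) * f ^ i =
      f ^ j * ∑ i ∈ Finset.range (D + 1 - j), aeval z (P (j + i)) * f ^ i := by
    have h1 : D + 1 = j + (D + 1 - j) := by omega
    conv_lhs => rw [h1]
    rw [Finset.sum_range_add, Finset.sum_eq_zero, zero_add, Finset.mul_sum]
    · refine Finset.sum_congr rfl fun i _ => ?_
      rw [pow_add]
      ring
    · intro i hi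
      rw [hjmin i (Finset.mem_range.1 hi), zero_mul]
  rw [hsplit] at hcomp
  have hcomp' := (mul_eq_zero.1 hcomp).resolve_left (pow_ne_zero _ hf0)
  have h2 : D + 1 - j = (D - j) + 1 := by omega
  rw [h2, Finset.sum_range_succ'] at hcomp'
  refine ⟨P j, ?_, ?_, -∑ i ∈ Finset.range (D - j), aeval z (P (j + (i + 1))) * f ^ i, ?_⟩
  · intro h
    rw [h, map_zero] at hj0
    exact hj0 rfl
  · refine (hPdeg j).trans ?_
    rw [mul_comm D M]
    exact Nat.mul_le_mul_left _ (Nat.sub_le _ _)
  · rw [pow_zero, mul_one, add_zero] at hcomp'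
    rw [eq_neg_of_add_eq_zero_right hcomp', mul_neg, Finset.mul_sum]
    congr 1
    refine Finset.sum_congr rfl fun i _ => ?_
    ring

end Vale.Agent.P271.H242
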