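import Vale.Agent.P271.H242.PolyInt
import Vale.Agent.P271.H242.NormAlg

/-!
# P271, [CMIN] (helper242): uniform (A5)

`t[f] ∈ P_p` for all homogeneous `f ≠ 0` and `0 ≤ t < 1 / (C deg f)`.
-/

namespace Vale.Agent.P271.H242

open MeasureTheory Metric Set Topology Filter
open scoped ENNReal

variable {N : ℕ}

/-- Change of variables at a point where the derivative is invertible. -/
theorem exists_change {Z : (Fin N → ℂ) → (Fin N → ℂ)} {p : Fin N → ℂ} (hZ : ContDiffAt ℂ 1 Z p)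
    (hZ' : Function.Injective (fderiv ℂ Z p)) :
    ∃ U ∈ 𝓝 p, IsOpen U ∧ ∃ C : ℝ≥0∞, C < ∞ ∧ ∃ R : ℝ, ∀ g : (Fin N → ℂ) → ℝ≥0∞,
      ∀ V ⊆ U, MeasurableSet V →
      ∫⁻ x in V, g (Z x) ≤ C * ∫⁻ y in Set.pi univ fun _ => closedBall (0 : ℂ) R, g y := by
  classical
  set L := fderiv ℂ Z p with hL
  have hstrict : HasStrictFDerivAt Z L p := hZ.hasStrictFDerivAt one_ne_zero
  have hbij : Function.Bijective L :=
    ⟨hZ', LinearMap.injective_iff_surjective.1 hZ'⟩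
  let e : (Fin N → ℂ) ≃L[ℂ] (Fin N → ℂ) :=
    ContinuousLinearEquiv.ofBijective L (LinearMap.ker_eq_bot.2 hbij.1)
      (LinearMap.range_eq_top.2 hbij.2)
  have he : (e : (Fin N → ℂ) →L[ℂ] (Fin N → ℂ)) = L := by
    ext1 x; rfl
  have hstrict' : HasStrictFDerivAt Z (e : (Fin N → ℂ) →L[ℂ] (Fin N → ℂ)) p := by
    rw [he]; exact hstrict
  -- injectivity near `p`
  set φ := hstrict'.toOpenPartialHomeomorph Z with hφ
  have hsrc : φ.source ∈ 𝓝 p := φ.open_source.mem_nhds hstrict'.mem_toOpenPartialHomeomorph_source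
  -- differentiability near `p`
  have hdiff : ∀ᶠ x in 𝓝 p, ContDiffAt ℂ 1 Z x := hZ.eventually (by simp)
  -- determinants
  set J : (Fin N → ℂ) → ℝ := fun x => |((fderiv ℂ Z x).restrictScalars ℝ).det| with hJ
  have hJc : ContinuousAt J p := by
    have h1 : ContinuousAt (fun x => fderiv ℂ Z x) p :=
      (hZ.fderiv_right (m := 0) (by norm_num)).continuousAt
    have h2 : Continuous fun T : (Fin N → ℂ) →L[ℂ] (Fin N → ℂ) => T.restrictScalars ℝ :=
      ContinuousLinearMap.continuous_restrictScalars ℝ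
    exact (continuous_abs.comp (ContinuousLinearMap.continuous_det.comp h2)).continuousAt.comp h1
  have hJp : 0 < J p := by
    rw [hJ]
    simp only
    rw [abs_pos, ← hL]
    have h1 : Function.Injective (L.restrictScalars ℝ : (Fin N → ℂ) →L[ℝ] (Fin N → ℂ)) := hZ'
    have h2 : IsUnit ((L.restrictScalars ℝ : (Fin N → ℂ) →L[ℝ] (Fin N → ℂ)) :
        (Fin N → ℂ) →ₗ[ℝ] (Fin N → ℂ)) := by
      rw [Module.End.isUnit_iff]
      exact ⟨h1, LinearMap.injective_iff_surjective.1 h1⟩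
    exact (LinearMap.isUnit_iff_isUnit_det _).1 h2 |>.ne_zero
  have hJev : ∀ᶠ x in 𝓝 p, J p / 2 < J x := hJc.eventually (lt_mem_nhds (by linarith))
  have hbd : ∀ᶠ x in 𝓝 p, ‖Z x‖ < ‖Z p‖ + 1 :=
    hZ.continuousAt.norm.eventually (gt_mem_nhds (by linarith))
  obtain ⟨U, hUsub, hUo, hpU⟩ := _root_.mem_nhds_iff.1
    (inter_mem (inter_mem hsrc hdiff) (inter_mem hJev hbd))
  refine ⟨U, hUo.mem_nhds hpU, hUo, ENNReal.ofReal (2 / J p), ENNReal.ofReal_lt_top,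
    ‖Z p‖ + 1, fun g V hVU hV => ?_⟩
  have hinj : InjOn Z V := by
    intro x hx y hy hxy
    exact φ.injOn (hUsub (hVU hx)).1.1 (hUsub (hVU hy)).1.1 hxy
  have hderiv : ∀ x ∈ V, HasFDerivWithinAt Z ((fderiv ℂ Z x).restrictScalars ℝ) V x := by
    intro x hx
    have h1 : ContDiffAt ℂ 1 Z x := (hUsub (hVU hx)).1.2
    exact ((h1.differentiableAt one_ne_zero).hasFDerivAt.restrictScalars ℝ).hasFDerivWithinAt
  have hcv := lintegral_image_eq_lintegral_abs_det_fderiv_mul volume hV hderiv hinj g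
  have himg : Z '' V ⊆ Set.pi univ fun _ => closedBall (0 : ℂ) (‖Z p‖ + 1) := by
    rintro _ ⟨x, hx, rfl⟩ i _
    rw [mem_closedBall_zero_iff]
    exact (norm_le_pi_norm (Z x) i).trans (hUsub (hVU hx)).2.2.le
  have hpt : ∀ x ∈ V, g (Z x) ≤ ENNReal.ofReal (2 / J p) *
      (ENNReal.ofReal |((fderiv ℂ Z x).restrictScalars ℝ).det| * g (Z x)) := by
    intro x hx
    have h1 : J p / 2 < J x := (hUsub (hVU hx)).2.1
    rw [← mul_assoc, ← ENNReal.ofReal_mul (by positivity)]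
    have h2 : (1 : ℝ≥0∞) ≤ ENNReal.ofReal (2 / J p * |((fderiv ℂ Z x).restrictScalars ℝ).det|) := by
      rw [ENNReal.one_le_ofReal]
      change 1 ≤ 2 / J p * J x
      rw [div_mul_eq_mul_div, le_div_iff₀ hJp]
      linarith
    calc g (Z x) = 1 * g (Z x) := (one_mul _).symm
      _ ≤ _ := mul_le_mul_left h2 _
  calc ∫⁻ x in V, g (Z x) ≤ ∫⁻ x in V, ENNReal.ofReal (2 / J p) *
      (ENNReal.ofReal |((fderiv ℂ Z x).restrictScalars ℝ).det| * g (Z x)) :=
        setLIntegral_mono' hV hpt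
    _ = ENNReal.ofReal (2 / J p) * ∫⁻ x in V,
      (ENNReal.ofReal |((fderiv ℂ Z x).restrictScalars ℝ).det| * g (Z x)) :=
        lintegral_const_mul' _ _ ENNReal.ofReal_ne_top
    _ = ENNReal.ofReal (2 / J p) * ∫⁻ y in Z '' V, g y := by rw [hcv]
    _ ≤ _ := mul_le_mul_right (lintegral_mono_set himg) _

/-- `∏ |f|^{-2 t}` is bounded by the same expression for a multiple. -/
theorem rpow_le_of_mul {a b c : ℂ} (h : c = a * b) {G : ℝ} (hG : 0 < G) (hb : ‖b‖ ≤ G) {t : ℝ}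
    (ht : 0 < t) :
    ENNReal.ofReal (Real.exp (-2 * (t * Real.log ‖a‖))) ≤
      ENNReal.ofReal (G ^ (2 * t)) * (‖c‖ₑ) ^ (-2 * t) := by
  by_cases hc : c = 0
  · rw [hc, enorm_zero, ENNReal.zero_rpow_of_neg (by linarith), ENNReal.mul_top]
    · exact le_top
    · rw [Ne, ENNReal.ofReal_eq_zero, not_le]
      positivity
  · have ha : a ≠ 0 := by rintro rfl; simp at h; exact hc h
    have hb0 : b ≠ 0 := by rintro rfl; simp at h; exact hc h
    have hap : 0 < ‖a‖ := norm_pos_iff.2 ha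
    have hcp : 0 < ‖c‖ := norm_pos_iff.2 hc
    rw [← ofReal_norm, ENNReal.ofReal_rpow_of_pos hcp, ← ENNReal.ofReal_mul (by positivity)]
    apply ENNReal.ofReal_le_ofReal
    have h1 : Real.exp (-2 * (t * Real.log ‖a‖)) = ‖a‖ ^ (-2 * t) := by
      rw [Real.rpow_def_of_pos hap]
      congr 1
      ring
    rw [h1, h, norm_mul, Real.mul_rpow (norm_nonneg _) (norm_nonneg _)]
    have h2 : (1 : ℝ) ≤ G ^ (2 * t) * ‖b‖ ^ (-2 * t) := by
      have h3 : ‖b‖ ^ (-2 * t) = (‖b‖ ^ (2 * t))⁻¹ := by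
        rw [← Real.rpow_neg (norm_nonneg _)]
        congr 1
        ring
      have hbp : 0 < ‖b‖ := norm_pos_iff.2 hb0
      rw [h3, ← div_eq_mul_inv, one_le_div (Real.rpow_pos_of_pos hbp _)]
      exact Real.rpow_le_rpow (norm_nonneg _) hb (by linarith)
    have h4 : (0 : ℝ) ≤ ‖a‖ ^ (-2 * t) := Real.rpow_nonneg (norm_nonneg _) _
    calc ‖a‖ ^ (-2 * t) = ‖a‖ ^ (-2 * t) * 1 := (mul_one _).symm
      _ ≤ ‖a‖ ^ (-2 * t) * (G ^ (2 * t) * ‖b‖ ^ (-2 * t)) := mul_le_mul_of_nonneg_left h2 h4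
      _ = _ := by ring

variable {R : Type*} [CommRing R] [IsDomain R] [Algebra ℂ R] (A : ℕ → Submodule ℂ R)
  [GradedAlgebra A]

/-- **[CMIN]**: `t[f] ∈ P_p` for all homogeneous `f ≠ 0` and `0 ≤ t < 1 / (C deg f)`. -/
theorem cmin {m : ℕ} (hm : 0 < m) {z : Fin N → R} (hz : ∀ i, z i ∈ A m)
    (hfin : (MvPolynomial.aeval z : MvPolynomial (Fin N) ℂ →ₐ[ℂ] R).toRingHom.Finite)
    (ψ : (Fin N → ℂ) → (R →ₐ[ℂ] ℂ)) {p : Fin N → ℂ}
    (hZ : ContDiffAt ℂ 1 (fun x i => ψ x (z i)) p)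
    (hZ' : Function.Injective (fderiv ℂ (fun x i => ψ x (z i)) p))
    (hbdd : ∀ g : R, ∃ G : ℝ, ∀ᶠ x in 𝓝 p, ‖ψ x g‖ ≤ G) :
    ∃ D : ℕ, ∀ M, ∀ f ∈ A M, f ≠ 0 → ∀ t : ℝ, 0 ≤ t → t * (D * M) < m →
      ∃ U ∈ 𝓝 p, ∫⁻ x in U, ENNReal.ofReal (Real.exp (-2 * (t * Real.log ‖ψ x f‖))) < ∞ := by
  obtain ⟨D, hD⟩ := exists_poly_mul A hz hfin
  obtain ⟨U, hU, hUo, C, hC, r, hchange⟩ := exists_change hZ hZ'
  refine ⟨D, fun M f hf hf0 t ht htM => ?_⟩
  rcases ht.eq_or_lt with rfl | htpos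
  · refine ⟨ball p 1, ball_mem_nhds _ one_pos, ?_⟩
    simp only [zero_mul, mul_zero, Real.exp_zero, ENNReal.ofReal_one]
    rw [setLIntegral_one]
    exact measure_ball_lt_top
  obtain ⟨P, hP0, hPdeg, g, hPg⟩ := hD M f hf hf0
  obtain ⟨G, hG⟩ := hbdd g
  have htP : t * P.totalDegree < 1 := by
    have h1 : (m : ℝ) * P.totalDegree ≤ D * M := by exact_mod_cast hPdeg
    have hm' : (0 : ℝ) < m := by exact_mod_cast hm
    have h2 : t * (m * P.totalDegree) ≤ t * (D * M) := mul_le_mul_of_nonneg_left h1 ht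
    have h3 : (m : ℝ) * (t * P.totalDegree) < m * 1 := by
      calc (m : ℝ) * (t * P.totalDegree) = t * (m * P.totalDegree) := by ring
        _ ≤ t * (D * M) := h2
        _ < m := htM
        _ = m * 1 := (mul_one _).symm
    exact lt_of_mul_lt_mul_left h3 hm'.le
  obtain ⟨V, hVsub, hVo, hpV⟩ := _root_.mem_nhds_iff.1 (inter_mem hU hG)
  refine ⟨V, hVo.mem_nhds hpV, ?_⟩
  have hfin := lintegral_poly_lt_top htpos r P hP0 htP
  have h1 := hchange (fun y => (‖MvPolynomial.eval y P‖ₑ) ^ (-2 * t)) V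
    (fun x hx => (hVsub hx).1) hVo.measurableSet
  have hval : ∀ x, MvPolynomial.eval (fun i => ψ x (z i)) P = ψ x f * ψ x g := by
    intro x
    rw [← map_mul, ← hPg]
    have : (ψ x) (MvPolynomial.aeval z P) = MvPolynomial.aeval (fun i => ψ x (z i)) P := by
      rw [← AlgHom.comp_apply]
      congr 1
      apply MvPolynomial.algHom_ext
      intro i
      simp
    rw [this]
    exact (DFunLike.congr_fun (MvPolynomial.coe_aeval_eq_eval (fun i => ψ x (z i))) P).symm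
  refine lt_of_le_of_lt (setLIntegral_mono' hVo.measurableSet
    (g := fun x => ENNReal.ofReal ((|G| + 1) ^ (2 * t)) *
      (‖MvPolynomial.eval (fun i => ψ x (z i)) P‖ₑ) ^ (-2 * t)) fun x hx => ?_) ?_
  · refine rpow_le_of_mul (hval x) (by positivity) ?_ htpos
    exact ((hVsub hx).2).trans ((le_abs_self G).trans (by linarith))
  · rw [lintegral_const_mul' _ _ ENNReal.ofReal_ne_top]
    refine ENNReal.mul_lt_top ENNReal.ofReal_lt_top (lt_of_le_of_lt h1 ?_)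
    exact ENNReal.mul_lt_top hC hfin

end Vale.Agent.P271.H242
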