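import Vale.Agent.P271.LOCE.Pos

/-!
# P271, [MULT] (helper242): `|f|^{-2t}` is integrable near `p` for `t ≤ 1/(2(μ+1))`, where `f` is
holomorphic near `p` and is not `O(|x - p|^{μ+1})`.  Built on helper577's `slice_area`.
-/

open MeasureTheory Metric Set Filter Topology Complex
open scoped ENNReal NNReal Real

namespace Vale.Agent.P271.H242

open Vale.Agent.P271.LOCE

variable {E : Type*} [NormedAddCommGroup E] [NormedSpace ℂ E] [MeasurableSpace E] [BorelSpace E]
  [ProperSpace E] (μ : Measure E) [IsFiniteMeasureOnCompacts μ] [μ.IsAddRightInvariant]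

/-- Sublevel sets, explicit order (same proof as `LOCE.sublevel`). -/
theorem sublevel_dir {f : E → ℂ} {U : Set E} (hU : IsOpen U) (hf : DifferentiableOn ℂ f U)
    {p : E} (hp : p ∈ U) {e : E} {ρ : ℝ} (hρ : 0 < ρ)
    (hseg : ∀ s ∈ closedBall (0 : ℂ) ρ, p + s • e ∈ U) {k : ℕ}
    (hk : dd (slice f p e) ρ (fun _ : Fin (k + 1) => 0) ≠ 0) :
    ∃ K : ℝ, 0 < K ∧ ∃ C : ℝ≥0∞, C ≠ ∞ ∧ ∃ δ > 0, ball p δ ⊆ U ∧
      ∀ r : ℝ, 0 < r → r ≤ 1 → μ {w ∈ ball p δ | ‖f w‖ ≤ r ^ (k + 1) / K} ≤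
        C * ENNReal.ofReal (r ^ 2) := by
  obtain ⟨R, hR, hRU⟩ := Metric.isOpen_iff.1 hU p hp
  obtain ⟨η, hη, K, hK, hall⟩ := slice_area hU hf hρ hseg hk
  set η' := min η (η / (2 * (‖e‖ + 1))) with hη'
  have hη'0 : 0 < η' := by positivity
  have hη'e : η' * ‖e‖ ≤ η / 2 := by
    have h1 : η' ≤ η / (2 * (‖e‖ + 1)) := min_le_right _ _
    have h2 : η / (2 * (‖e‖ + 1)) * ‖e‖ ≤ η / 2 := by
      rw [div_mul_eq_mul_div, div_le_div_iff₀ (by positivity) (by positivity)]
      nlinarith [norm_nonneg e]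
    exact (mul_le_mul_of_nonneg_right h1 (norm_nonneg e)).trans h2
  have hvol0 : volume (ball (0 : ℂ) η') ≠ 0 := (measure_ball_pos volume _ hη'0).ne'
  have hvolt : volume (ball (0 : ℂ) η') ≠ ∞ := measure_ball_lt_top.ne
  have hμt : μ (ball p η) ≠ ∞ := measure_ball_lt_top.ne
  refine ⟨K, hK, ENNReal.ofReal (k * π) * μ (ball p η) / volume (ball (0 : ℂ) η'),
    ENNReal.div_ne_top (ENNReal.mul_ne_top ENNReal.ofReal_ne_top hμt) hvol0, min R (η / 2),
    by positivity, (ball_subset_ball (min_le_left _ _)).trans hRU, ?_⟩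
  intro r hr hr1
  have hS : MeasurableSet {w ∈ U | ‖f w‖ ≤ r ^ (k + 1) / K} := measurable_le_aux hU hf _
  have h := avg_upper μ e hS (D := ball (0 : ℂ) η') measurableSet_ball
    (B' := ball p (min R (η / 2))) (B := ball p η) measurableSet_ball (by
      intro ζ hζ w hw
      rw [mem_ball_zero_iff] at hζ
      rw [mem_ball, dist_eq_norm] at hw ⊢
      have h1 : w - p = (w + ζ • e - p) - ζ • e := by abel
      rw [h1]
      refine (norm_sub_le _ _).trans_lt ?_
      rw [norm_smul]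
      have h2 : ‖ζ‖ * ‖e‖ ≤ η' * ‖e‖ := mul_le_mul_of_nonneg_right hζ.le (norm_nonneg _)
      have h3 : min R (η / 2) ≤ η / 2 := min_le_right _ _
      linarith) (A := ENNReal.ofReal (k * π * r ^ 2)) (by
      intro w hw
      rw [Measure.restrict_apply]
      · refine (measure_mono ?_).trans ((hall w hw).2 r hr hr1)
        rintro ζ ⟨h1, h2⟩
        exact ⟨ball_subset_ball (min_le_left _ _) h2, h1.2⟩
      · have : Measurable (fun ζ : ℂ => w + ζ • e) := by fun_prop
        exact this hS)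
  have hset : {w ∈ ball p (min R (η / 2)) | ‖f w‖ ≤ r ^ (k + 1) / K} =
      ball p (min R (η / 2)) ∩ {w ∈ U | ‖f w‖ ≤ r ^ (k + 1) / K} := by
    ext w
    simp only [mem_ofPred_eq, mem_inter_iff]
    constructor
    · rintro ⟨h1, h2⟩
      exact ⟨h1, hRU (ball_subset_ball (min_le_left _ _) h1), h2⟩
    · rintro ⟨h1, h2, h3⟩
      exact ⟨h1, h3⟩
  rw [hset]
  rw [ENNReal.ofReal_mul (by positivity)] at h
  rw [← ENNReal.le_div_iff_mul_le (Or.inl hvol0) (Or.inl hvolt)] at h
  refine h.trans (le_of_eq ?_)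
  simp only [div_eq_mul_inv]
  ring

/-- (A5) with explicit exponent (same proof as `LOCE.pos`). -/
theorem pos_dir {f : E → ℂ} {U : Set E} (hU : IsOpen U) (hf : DifferentiableOn ℂ f U)
    {p : E} (hp : p ∈ U) (hne : ∃ᶠ z in 𝓝 p, f z ≠ 0) {e : E} {ρ : ℝ} (hρ : 0 < ρ)
    (hseg : ∀ s ∈ closedBall (0 : ℂ) ρ, p + s • e ∈ U) {k : ℕ}
    (hk : dd (slice f p e) ρ (fun _ : Fin (k + 1) => 0) ≠ 0) :
    ∃ V ∈ 𝓝 p, ∫⁻ w in V, ENNReal.ofReal (Real.exp (-2 * ((1 / (2 * (k + 1)) : ℝ) *
      Real.log ‖f w‖))) ∂μ < ∞ := by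
  obtain ⟨K, hK, C, hC, δ, hδ, hsub, h⟩ := sublevel_dir μ hU hf hp hρ hseg hk
  obtain ⟨δ', hδ', hsub', hnull⟩ := zero_null μ hU hf hp hne
  set t : ℝ := 1 / (2 * (k + 1)) with ht
  have ht0 : 0 < t := by positivity
  set V := ball p (min δ δ') with hV
  have hV1 : V ⊆ ball p δ := ball_subset_ball (min_le_left _ _)
  have hV2 : V ⊆ ball p δ' := ball_subset_ball (min_le_right _ _)
  set S : ℕ → Set E := fun j => {w ∈ U | ‖f w‖ ≤ (((1:ℝ) / 2) ^ j) ^ (k + 1) / K} with hSdef
  have hS : ∀ j, MeasurableSet (S j) := fun j => measurable_le_aux hU hf _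
  set K' : ℝ := Real.exp (2 * t * Real.log K) with hK'
  have hK'0 : 0 < K' := Real.exp_pos _
  have hμS : ∀ j, μ.restrict V (S j) ≤ C * ENNReal.ofReal ((((1:ℝ) / 2) ^ j) ^ 2) := by
    intro j
    rw [Measure.restrict_apply (hS j)]
    refine (measure_mono ?_).trans (h (((1:ℝ) / 2) ^ j) (by positivity) (pow_le_one₀ (by norm_num)
      (by norm_num)))
    rintro w ⟨h1, h2⟩
    exact ⟨hV1 h2, h1.2⟩
  have hbound : ∀ᵐ w ∂(μ.restrict V), ENNReal.ofReal (Real.exp (-2 * (t * Real.log ‖f w‖))) ≤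
      ENNReal.ofReal K' + ∑' j, (S j).indicator (fun _ => ENNReal.ofReal (K' * 2 ^ (j + 1))) w := by
    have h0 : ∀ᵐ w ∂(μ.restrict V), f w ≠ 0 := by
      rw [ae_restrict_iff' measurableSet_ball, ae_iff]
      refine measure_mono_null ?_ hnull
      intro w hw
      simp only [mem_ofPred_eq, Classical.not_imp, not_not] at hw
      exact ⟨hV2 hw.1, hw.2⟩
    have hVm : ∀ᵐ w ∂(μ.restrict V), w ∈ V := ae_restrict_mem measurableSet_ball
    filter_upwards [h0, hVm] with w hw hwV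
    have hfw : 0 < ‖f w‖ := norm_pos_iff.2 hw
    by_cases hc : 1 ≤ K * ‖f w‖
    · refine le_trans ?_ le_self_add
      apply ENNReal.ofReal_le_ofReal
      rw [hK']
      apply Real.exp_le_exp.2
      have h1 := Real.log_nonneg hc
      rw [Real.log_mul hK.ne' hfw.ne'] at h1
      nlinarith
    · push Not at hc
      obtain ⟨j, hj1, hj2⟩ := exists_nat_pow_near_of_lt_one (x := K * ‖f w‖)
        (y := ((1:ℝ) / 2) ^ (k + 1)) (by positivity) hc.le (by positivity)
        (pow_lt_one₀ (by norm_num) (by norm_num) (by omega))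
      have hwS : w ∈ S j := by
        refine ⟨hsub (hV1 hwV), ?_⟩
        rw [le_div_iff₀ hK, mul_comm, ← pow_mul, mul_comm j, pow_mul]
        exact hj2
      refine le_trans ?_ le_add_self
      refine le_trans ?_ (ENNReal.le_tsum j)
      rw [indicator_of_mem hwS]
      apply ENNReal.ofReal_le_ofReal
      have h1 : -((j:ℝ) + 1) * (k + 1) * Real.log 2 ≤ Real.log (K * ‖f w‖) := by
        have h2 := Real.log_le_log (by positivity) hj1.le
        rw [Real.log_pow, Real.log_pow, one_div, Real.log_inv] at h2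
        push_cast at h2
        linarith
      rw [Real.log_mul hK.ne' hfw.ne'] at h1
      have h3 : K' * 2 ^ (j + 1) = Real.exp (2 * t * Real.log K + (j + 1) * Real.log 2) := by
        rw [Real.exp_add, hK']
        congr 1
        have h4 : ((j:ℝ) + 1) * Real.log 2 = ((j + 1 : ℕ) : ℝ) * Real.log 2 := by push_cast; ring
        rw [h4, Real.exp_nat_mul, Real.exp_log (by norm_num)]
      rw [h3]
      apply Real.exp_le_exp.2
      have h5 : 2 * t * (((j:ℝ) + 1) * (k + 1) * Real.log 2) = (j + 1) * Real.log 2 := by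
        rw [ht]
        field_simp
      nlinarith [mul_le_mul_of_nonneg_left h1 (by positivity : (0:ℝ) ≤ 2 * t)]
  refine ⟨V, ball_mem_nhds p (by positivity), ?_⟩
  refine (lintegral_mono_ae hbound).trans_lt ?_
  rw [lintegral_add_left measurable_const, lintegral_const, Measure.restrict_apply_univ,
    lintegral_tsum (fun j => (measurable_const.indicator (hS j)).aemeasurable)]
  refine ENNReal.add_lt_top.2 ⟨ENNReal.mul_lt_top ENNReal.ofReal_lt_top measure_ball_lt_top, ?_⟩
  have hsum : Summable (fun j : ℕ => K' * 2 * ((1:ℝ) / 2) ^ j) :=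
    (summable_geometric_of_lt_one (by norm_num) (by norm_num)).mul_left _
  have hle : ∀ j : ℕ, ∫⁻ w in V, (S j).indicator (fun _ => ENNReal.ofReal (K' * 2 ^ (j + 1))) w ∂μ ≤
      C * ENNReal.ofReal (K' * 2 * ((1:ℝ) / 2) ^ j) := by
    intro j
    rw [lintegral_indicator_const (hS j)]
    refine (mul_le_mul_right (hμS j) _).trans (le_of_eq ?_)
    rw [mul_left_comm, ← ENNReal.ofReal_mul (by positivity)]
    congr 2
    have h6 : ((1:ℝ) / 2) ^ j * 2 ^ j = 1 := by
      rw [← mul_pow]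
      norm_num
    calc K' * 2 ^ (j + 1) * (((1:ℝ) / 2) ^ j) ^ 2 =
        K' * 2 * ((1:ℝ) / 2) ^ j * (((1:ℝ) / 2) ^ j * 2 ^ j) := by ring
      _ = K' * 2 * ((1:ℝ) / 2) ^ j := by rw [h6, mul_one]
  refine (ENNReal.tsum_le_tsum hle).trans_lt ?_
  rw [ENNReal.tsum_mul_left]
  exact ENNReal.mul_lt_top hC.lt_top hsum.tsum_ofReal_lt_top


omit [MeasurableSpace E] [BorelSpace E] [ProperSpace E] in
/-- The divided difference at `0` of a slice is the Taylor coefficient. -/
theorem dd_slice {f : E → ℂ} {p : E} {P : FormalMultilinearSeries ℂ E ℂ}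
    (hP : HasFPowerSeriesAt f P p) {e : E} {ρ : ℝ} (hρ : 0 < ρ)
    (hd : DiffContOnCl ℂ (slice f p e) (ball 0 ρ)) (k : ℕ) :
    dd (slice f p e) ρ (fun _ : Fin (k + 1) => 0) = P k fun _ => e := by
  lift ρ to ℝ≥0 using hρ.le
  have hs := (hd.hasFPowerSeriesOnBall (by exact_mod_cast hρ)).hasFPowerSeriesAt
  have h1 : HasFPowerSeriesAt (fun z => f (z + p)) P 0 := by
    have h := hP.comp_sub (-p)
    simpa using h
  let L : ℂ →L[ℂ] E := ContinuousLinearMap.smulRight (1 : ℂ →L[ℂ] ℂ) e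
  have hL0 : L 0 = 0 := map_zero L
  have h2 : HasFPowerSeriesAt (slice f p e) (P.compContinuousLinearMap L) 0 := by
    have h3 : HasFPowerSeriesAt (fun z => f (z + p)) P (L 0) := by rw [hL0]; exact h1
    have h4 := h3.compContinuousLinearMap (u := L)
    refine h4.congr (Eventually.of_forall fun s => ?_)
    simp [slice, L, add_comm]
  have h5 := hs.eq_formalMultilinearSeries h2
  have h6 : (cauchyPowerSeries (slice f p e) 0 ρ) k (fun _ => (1 : ℂ)) =
      (P.compContinuousLinearMap L) k (fun _ => (1 : ℂ)) := by rw [h5]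
  rw [cauchyPowerSeries_apply, FormalMultilinearSeries.compContinuousLinearMap_apply] at h6
  have h7 : (fun _ : Fin k => e) = L ∘ fun _ : Fin k => (1 : ℂ) := by
    funext i
    simp [L]
  rw [h7, ← h6]
  unfold dd
  congr 1
  congr 1
  ext s
  simp only [sub_zero, Finset.prod_const, Finset.card_univ, Fintype.card_fin, smul_eq_mul]
  rw [one_div, pow_succ, mul_inv, inv_pow]
  ring

/-- **[MULT]**: if `f` is not `O(|x - p|^{m + 1})` then `|f|^{-2t}` is integrable near `p` for
`0 ≤ t ≤ 1 / (2 (m + 1))`. -/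
theorem mult {f : E → ℂ} {p : E} (hf : AnalyticAt ℂ f p) {m : ℕ}
    (hord : ¬ f =O[𝓝 p] fun x => ‖x - p‖ ^ (m + 1)) {t : ℝ} (ht0 : 0 ≤ t)
    (ht : t * (2 * (m + 1)) ≤ 1) :
    ∃ V ∈ 𝓝 p, ∫⁻ w in V, ENNReal.ofReal (Real.exp (-2 * (t * Real.log ‖f w‖))) ∂μ < ∞ := by
  obtain ⟨P, hP⟩ := hf
  -- a nonzero Taylor coefficient
  have hex : ∃ k ≤ m, ∃ e : E, P k (fun _ => e) ≠ 0 := by
    by_contra hcon
    push Not at hcon
    apply hord
    have h1 := hP.isBigO_sub_partialSum_pow (m + 1)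
    have h2 : (fun y : E => f (p + y) - P.partialSum (m + 1) y) = fun y => f (p + y) := by
      funext y
      rw [FormalMultilinearSeries.partialSum, Finset.sum_eq_zero, sub_zero]
      intro k hk
      exact hcon k (Nat.lt_succ_iff.1 (Finset.mem_range.1 hk)) y
    rw [h2] at h1
    have h3 : Tendsto (fun x : E => x - p) (𝓝 p) (𝓝 0) := by
      have : Continuous fun x : E => x - p := by fun_prop
      simpa using this.tendsto p
    have h4 := h1.comp_tendsto h3
    refine h4.congr (fun x => ?_) fun x => rfl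
    simp
  obtain ⟨k, hkm, e, he⟩ := hex
  obtain ⟨R, hR, hRan⟩ := Metric.eventually_nhds_iff_ball.1 hP.analyticAt.eventually_analyticAt
  have hdiff : DifferentiableOn ℂ f (ball p R) := fun x hx =>
    (hRan x hx).differentiableAt.differentiableWithinAt
  -- a short vector
  set c : ℝ := R / (2 * (‖e‖ + 1)) with hc
  have hc0 : 0 < c := by positivity
  set e' : E := (c : ℂ) • e with he'
  have hne' : ‖e'‖ < R := by
    rw [he', norm_smul, Complex.norm_real, Real.norm_of_nonneg hc0.le, hc]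
    rw [div_mul_eq_mul_div, div_lt_iff₀ (by positivity)]
    nlinarith [norm_nonneg e]
  have hP' : P k (fun _ => e') ≠ 0 := by
    have h1 : P k (fun _ => e') = (∏ _i : Fin k, (c : ℂ)) • P k (fun _ => e) :=
      (P k).map_smul_univ (fun _ => (c : ℂ)) (fun _ => e)
    rw [h1, smul_ne_zero_iff]
    refine ⟨?_, he⟩
    rw [Finset.prod_const]
    exact pow_ne_zero _ (by exact_mod_cast hc0.ne')
  have hseg : ∀ s ∈ closedBall (0 : ℂ) 1, p + s • e' ∈ ball p R := by
    intro s hs
    rw [mem_closedBall_zero_iff] at hs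
    rw [mem_ball, dist_eq_norm, add_sub_cancel_left, norm_smul]
    calc ‖s‖ * ‖e'‖ ≤ 1 * ‖e'‖ := mul_le_mul_of_nonneg_right hs (norm_nonneg _)
      _ < R := by rwa [one_mul]
  have hdd : dd (slice f p e') 1 (fun _ : Fin (k + 1) => 0) ≠ 0 := by
    rw [dd_slice hP one_pos (slice_diffContOnCl isOpen_ball hdiff hseg)]
    exact hP'
  have hfreq : ∃ᶠ z in 𝓝 p, f z ≠ 0 := by
    intro hcon
    apply hord
    have h1 : f =ᶠ[𝓝 p] fun _ => 0 := by
      filter_upwards [hcon] with z hz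
      simpa using hz
    exact (Asymptotics.isBigO_zero _ _).congr' h1.symm (EventuallyEq.refl _ _)
  obtain ⟨V, hV, hfin⟩ := pos_dir μ isOpen_ball hdiff (mem_ball_self hR) hfreq one_pos hseg hdd
  set t' : ℝ := 1 / (2 * (k + 1)) with ht'
  have htt' : t ≤ t' := by
    rw [ht', le_div_iff₀ (by positivity)]
    have h1 : (k : ℝ) ≤ m := by exact_mod_cast hkm
    nlinarith
  refine ⟨V ∩ ball p 1, inter_mem hV (ball_mem_nhds p one_pos), ?_⟩
  calc ∫⁻ w in V ∩ ball p 1, ENNReal.ofReal (Real.exp (-2 * (t * Real.log ‖f w‖))) ∂μ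
      ≤ ∫⁻ w in V ∩ ball p 1,
        (1 + ENNReal.ofReal (Real.exp (-2 * (t' * Real.log ‖f w‖)))) ∂μ := by
        refine lintegral_mono fun w => ?_
        by_cases h : Real.log ‖f w‖ ≤ 0
        · refine le_trans ?_ le_add_self
          apply ENNReal.ofReal_le_ofReal
          apply Real.exp_le_exp.2
          nlinarith
        · push Not at h
          refine le_trans ?_ le_self_add
          rw [← ENNReal.ofReal_one]
          apply ENNReal.ofReal_le_ofReal
          rw [← Real.exp_zero]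
          apply Real.exp_le_exp.2
          nlinarith
    _ = μ (V ∩ ball p 1) + ∫⁻ w in V ∩ ball p 1,
        ENNReal.ofReal (Real.exp (-2 * (t' * Real.log ‖f w‖))) ∂μ := by
        rw [lintegral_add_left measurable_const, setLIntegral_one]
    _ < ∞ := by
        refine ENNReal.add_lt_top.2 ⟨?_, ?_⟩
        · exact (measure_mono inter_subset_right).trans_lt measure_ball_lt_top
        · exact (lintegral_mono_set inter_subset_left).trans_lt hfin

end Vale.Agent.P271.H242
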