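import Vale.Agent.P271.H242.Mult
import Vale.Agent.P271.H242.CminES

/-!
# P271, [MULT] (helper242) for the exponent sets
-/

namespace Vale.Agent.P271.H242

open MeasureTheory Metric Set Topology Filter Finsupp
open Vale.Agent.P271.Sch Vale.Agent.P271.H741 Vale.Agent.P271.Inst Vale.Agent.P271.H989
open Vale.Agent.P271.Zorn
open scoped ENNReal

/-- `t[f] ∈ P_φ` for `0 ≤ t ≤ 1/(2(k+1))` if `f` is not `O(|x|^{k+1})` in a chart at `φ`. -/
theorem mult_ES {R : Type} [CommRing R] [Algebra ℂ R] {φ : R →ₐ[ℂ] ℂ} {m : ℕ} (c : Chart φ m)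
    {H : Type*} (r : H → R) (h : H) {k : ℕ}
    (hord : ¬ (fun x => c.ψ x (r h)) =O[𝓝 0] fun x => ‖x‖ ^ (k + 1)) {t : ℝ} (ht0 : 0 ≤ t)
    (ht : t * (2 * (k + 1)) ≤ 1) : single h t ∈ ES m r φ := by
  have h0 : (0 : Fin m → ℂ) ∈ ball (0 : Fin m → ℂ) c.ρ := mem_ball_self c.ρ_pos
  obtain ⟨V, hV, hlt⟩ := mult (volume : Measure (Fin m → ℂ)) ((c.holo (r h)) 0 h0)
    (m := k) (by simpa using hord) ht0 ht
  rw [ES_eq_PP c]
  refine ⟨V, hV, ?_⟩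
  refine lt_of_le_of_lt (le_of_eq ?_) hlt
  refine lintegral_congr fun x => ?_
  unfold wt
  rw [lg_single]

/-- The same for the exponent sets on the ring. -/
theorem mult_extP {n : ℕ} (C : GCone n) {φ : C.Pt} (c : Chart φ (n + 1)) {f : C.R}
    (hf : f ∈ HM C) {k : ℕ} (hord : ¬ (fun x => c.ψ x f) =O[𝓝 0] fun x => ‖x‖ ^ (k + 1)) {t : ℝ}
    (ht0 : 0 ≤ t) (ht : t * (2 * (k + 1)) ≤ 1) :
    single f t ∈ Exp.extP (HM C) (ES (n + 1) (fun h : HM C => (h : C.R)) φ) :=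
  single_mem_extP (h := ⟨f, hf⟩) (mult_ES c (fun h : HM C => (h : C.R)) ⟨f, hf⟩ hord ht0 ht)

end Vale.Agent.P271.H242
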