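import Mathlib

/-!
# P271, [CMIN] (helper242), analytic part

For a nonzero polynomial `P` on `ℂ^N` and `t ≥ 0` with `t * totalDegree P < 1` the function
`|P|^{-2t}` is integrable on every polydisc.
-/

namespace Vale.Agent.P271.H242

open MeasureTheory Metric Set
open scoped ENNReal

/-- `∫ |λ - a|^{-s}` over a disc is bounded independently of `a`. -/
theorem exists_bound_one {s : ℝ} (hs0 : 0 ≤ s) (hs : s < 2) (R : ℝ) :
    ∃ C : ℝ≥0∞, C < ∞ ∧ ∀ a : ℂ, ∫⁻ z in closedBall (0 : ℂ) R, (‖z - a‖ₑ) ^ (-s) ≤ C := by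
  have hfin : ∫⁻ z in ball (0 : ℂ) 1, (‖z‖ₑ) ^ (-s) < ∞ := by
    have hint : IntegrableOn (fun z : ℂ => ‖z‖ ^ (-s)) (ball (0 : ℂ) 1) volume := by
      refine integrableOn_ball_of_norm_le_rpow (C := 1) (α := s) ?_ ?_ ?_ ?_
      · rw [Complex.finrank_real_complex]; norm_num
      · rw [Complex.finrank_real_complex]; exact_mod_cast hs
      · refine Filter.Eventually.of_forall fun z => ?_
        rw [one_mul, Real.norm_of_nonneg (Real.rpow_nonneg (norm_nonneg _) _)]
      · exact (measurable_norm.pow_const (-s)).aestronglyMeasurable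
    have h1 := hint.2
    rw [hasFiniteIntegral_iff_enorm] at h1
    refine lt_of_le_of_lt (le_of_eq ?_) h1
    refine lintegral_congr_ae ?_
    have h0 : ∀ᵐ z : ℂ ∂(volume.restrict (ball (0 : ℂ) 1)), z ≠ 0 := by
      refine ae_restrict_of_ae ?_
      exact Measure.ae_ne volume 0
    filter_upwards [h0] with z hz
    have hz' : 0 < ‖z‖ := norm_pos_iff.2 hz
    rw [← ofReal_norm, ← ofReal_norm, ENNReal.ofReal_rpow_of_pos hz',
      Real.norm_of_nonneg (Real.rpow_nonneg (norm_nonneg _) _)]
  refine ⟨(∫⁻ z in ball (0 : ℂ) 1, (‖z‖ₑ) ^ (-s)) + volume (closedBall (0 : ℂ) R),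
    ENNReal.add_lt_top.2 ⟨hfin, measure_closedBall_lt_top⟩, fun a => ?_⟩
  have hsplit : closedBall (0 : ℂ) R ⊆ ball a 1 ∪ (closedBall (0 : ℂ) R \ ball a 1) := by
    intro z hz
    by_cases h : z ∈ ball a 1
    · exact Or.inl h
    · exact Or.inr ⟨hz, h⟩
  refine (lintegral_mono_set hsplit).trans ((lintegral_union_le _ _ _).trans ?_)
  refine add_le_add ?_ ?_
  · have h2 : ∫⁻ z in ball a 1, (‖z - a‖ₑ) ^ (-s) = ∫⁻ z in ball (0 : ℂ) 1, (‖z‖ₑ) ^ (-s) := by
      have hmp : MeasurePreserving (fun z : ℂ => z - a) volume volume :=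
        measurePreserving_sub_right volume a
      have h3 := hmp.setLIntegral_comp_preimage (s := ball (0 : ℂ) 1) measurableSet_ball
        (f := fun z : ℂ => (‖z‖ₑ) ^ (-s)) (measurable_enorm.pow_const _)
      rw [← h3]
      congr 2
      ext z
      simp [mem_ball, dist_eq_norm]
    rw [h2]
  · have h4 : ∀ z ∈ closedBall (0 : ℂ) R \ ball a 1, (‖z - a‖ₑ) ^ (-s) ≤ 1 := by
      intro z hz
      have h5 : 1 ≤ ‖z - a‖ := by
        have := hz.2
        rw [mem_ball, not_lt, dist_eq_norm] at this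
        exact this
      have h6 : (1 : ℝ≥0∞) ≤ ‖z - a‖ₑ := by
        rw [← ofReal_norm]
        exact ENNReal.one_le_ofReal.2 h5
      rw [ENNReal.rpow_neg, ENNReal.inv_le_one]
      rcases hs0.eq_or_lt with rfl | hpos
      · simp
      · exact ENNReal.one_le_rpow h6 hpos
    calc ∫⁻ z in closedBall (0 : ℂ) R \ ball a 1, (‖z - a‖ₑ) ^ (-s)
        ≤ ∫⁻ z in closedBall (0 : ℂ) R \ ball a 1, 1 :=
          setLIntegral_mono' (measurableSet_closedBall.diff measurableSet_ball) h4
      _ = volume (closedBall (0 : ℂ) R \ ball a 1) := setLIntegral_one _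
      _ ≤ volume (closedBall (0 : ℂ) R) := measure_mono sdiff_subset

theorem multiset_prod_le (m : Multiset ℝ≥0∞) {D : ℕ} (hD : m.card = D) (hD1 : 1 ≤ D) :
    m.prod ≤ (m.map (· ^ D)).sum := by
  have hne : m ≠ 0 := by
    rintro rfl
    simp at hD
    omega
  obtain ⟨y, hy, hmax⟩ : ∃ y ∈ m, ∀ x ∈ m, x ≤ y := by
    have : m.toFinset.Nonempty := by
      rw [Multiset.toFinset_nonempty]
      exact hne
    obtain ⟨y, hy, h⟩ := m.toFinset.exists_max_image id this
    exact ⟨y, Multiset.mem_toFinset.1 hy, fun x hx => h x (Multiset.mem_toFinset.2 hx)⟩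
  calc m.prod ≤ y ^ m.card := Multiset.prod_le_pow_card _ _ hmax
    _ = y ^ D := by rw [hD]
    _ ≤ (m.map (· ^ D)).sum := Multiset.single_le_sum (fun _ _ => zero_le) _
        (Multiset.mem_map_of_mem _ hy)

theorem enorm_prod_rpow (z : ℂ) (c : ℝ) (m : Multiset ℂ) :
    (‖(m.map (z - ·)).prod‖ₑ) ^ c = (m.map fun a => (‖z - a‖ₑ) ^ c).prod := by
  induction m using Multiset.induction_on with
  | empty => simp
  | cons a m ih =>
    rw [Multiset.map_cons, Multiset.prod_cons, Multiset.map_cons, Multiset.prod_cons, enorm_mul,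
      ENNReal.mul_rpow_of_ne_top enorm_ne_top enorm_ne_top, ih]

theorem lintegral_multiset_sum_le {α : Type*} [MeasurableSpace α] (μ : Measure α) (m : Multiset ℂ)
    (g : ℂ → α → ℝ≥0∞) (hg : ∀ a, Measurable (g a)) {C : ℝ≥0∞}
    (hC : ∀ a, ∫⁻ x, g a x ∂μ ≤ C) :
    ∫⁻ x, (m.map fun a => g a x).sum ∂μ ≤ m.card * C := by
  induction m using Multiset.induction_on with
  | empty => simp
  | cons a m ih =>
    simp only [Multiset.map_cons, Multiset.sum_cons, Multiset.card_cons]
    rw [lintegral_add_left (hg a)]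
    push_cast
    rw [add_mul, one_mul, add_comm]
    exact add_le_add ih (hC a)

/-- One variable: `∫ |q|^{-2t} ≤ |lc q|^{-2t} C`, `C` depending only on the degree. -/
theorem exists_bound_poly {t : ℝ} (ht : 0 ≤ t) {D : ℕ} (htD : t * D < 1) (R : ℝ) :
    ∃ C : ℝ≥0∞, C < ∞ ∧ ∀ q : Polynomial ℂ, q.natDegree = D → q ≠ 0 →
      ∫⁻ z in closedBall (0 : ℂ) R, (‖q.eval z‖ₑ) ^ (-2 * t) ≤
        (‖q.leadingCoeff‖ₑ) ^ (-2 * t) * C := by
  obtain ⟨C, hC, hbound⟩ := exists_bound_one (s := 2 * t * D) (by positivity) (by linarith) R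
  rcases Nat.eq_zero_or_pos D with rfl | hD
  · refine ⟨volume (closedBall (0 : ℂ) R), measure_closedBall_lt_top, fun q hq hq0 => ?_⟩
    have h1 : ∀ z, q.eval z = q.leadingCoeff := by
      intro z
      rw [Polynomial.eq_C_of_natDegree_eq_zero hq]
      simp
    simp only [h1]
    rw [setLIntegral_const]
  · refine ⟨D * C, ENNReal.mul_lt_top (ENNReal.natCast_lt_top D) hC, fun q hq hq0 => ?_⟩
    have hsplit : q.Splits := IsAlgClosed.splits q
    have hcard : q.roots.card = D := by
      rw [← hq]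
      exact hsplit.natDegree_eq_card_roots.symm
    have heval : ∀ z, (‖q.eval z‖ₑ) ^ (-2 * t) ≤ (‖q.leadingCoeff‖ₑ) ^ (-2 * t) *
        (q.roots.map fun a => (‖z - a‖ₑ) ^ (-(2 * t * D))).sum := by
      intro z
      rw [hsplit.eval_eq_prod_roots, enorm_mul,
        ENNReal.mul_rpow_of_ne_top enorm_ne_top enorm_ne_top, enorm_prod_rpow]
      refine mul_le_mul_right ?_ _
      refine (multiset_prod_le _ (D := D) (by rw [Multiset.card_map, hcard]) hD).trans (le_of_eq ?_)
      rw [Multiset.map_map]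
      congr 1
      refine Multiset.map_congr rfl fun a _ => ?_
      simp only [Function.comp_apply]
      rw [← ENNReal.rpow_natCast, ← ENNReal.rpow_mul]
      congr 1
      ring
    have hmeas : ∀ a : ℂ, Measurable fun z : ℂ => (‖z - a‖ₑ) ^ (-(2 * t * D)) := fun a =>
      (measurable_enorm.comp (measurable_id.sub_const a)).pow_const _
    calc ∫⁻ z in closedBall (0 : ℂ) R, (‖q.eval z‖ₑ) ^ (-2 * t)
        ≤ ∫⁻ z in closedBall (0 : ℂ) R, (‖q.leadingCoeff‖ₑ) ^ (-2 * t) *
          (q.roots.map fun a => (‖z - a‖ₑ) ^ (-(2 * t * D))).sum := lintegral_mono heval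
      _ = (‖q.leadingCoeff‖ₑ) ^ (-2 * t) * ∫⁻ z in closedBall (0 : ℂ) R,
          (q.roots.map fun a => (‖z - a‖ₑ) ^ (-(2 * t * D))).sum := by
          refine lintegral_const_mul' _ _ ?_
          refine ENNReal.rpow_ne_top_of_ne_zero ?_ enorm_ne_top
          rw [enorm_ne_zero]
          exact Polynomial.leadingCoeff_ne_zero.2 hq0
      _ ≤ (‖q.leadingCoeff‖ₑ) ^ (-2 * t) * (D * C) := by
          refine mul_le_mul_right ?_ _
          have := lintegral_multiset_sum_le (volume.restrict (closedBall (0 : ℂ) R)) q.roots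
            (fun a z => (‖z - a‖ₑ) ^ (-(2 * t * D))) hmeas hbound
          rwa [hcard] at this

theorem measurable_eval {N : ℕ} (P : MvPolynomial (Fin N) ℂ) :
    Measurable fun x : Fin N → ℂ => MvPolynomial.eval x P :=
  (MvPolynomial.continuous_eval P).measurable

/-- **(A5), polynomial case, sharp in the degree.** -/
theorem lintegral_poly_lt_top {t : ℝ} (ht : 0 < t) (R : ℝ) :
    ∀ {N : ℕ} (P : MvPolynomial (Fin N) ℂ), P ≠ 0 → t * P.totalDegree < 1 →
      ∫⁻ x in Set.pi univ fun _ : Fin N => closedBall (0 : ℂ) R,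
        (‖MvPolynomial.eval x P‖ₑ) ^ (-2 * t) < ∞ := by
  intro N
  induction N with
  | zero =>
    intro P hP htP
    have h1 : ∀ x : Fin 0 → ℂ, (‖MvPolynomial.eval x P‖ₑ) ^ (-2 * t) =
        (‖MvPolynomial.eval 0 P‖ₑ) ^ (-2 * t) := by
      intro x
      rw [Subsingleton.elim x 0]
    simp only [h1]
    rw [setLIntegral_const]
    refine ENNReal.mul_lt_top ?_ ?_
    · refine lt_top_iff_ne_top.2 (ENNReal.rpow_ne_top_of_ne_zero ?_ enorm_ne_top)
      rw [enorm_ne_zero]
      intro h0
      apply hP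
      refine MvPolynomial.funext fun x => ?_
      rw [Subsingleton.elim x 0, h0, map_zero]
    · have : (Set.pi univ fun _ : Fin 0 => closedBall (0 : ℂ) R) = univ := by
        ext x; simp
      rw [this]
      simp
  | succ N ih =>
    intro P hP htP
    set Q := MvPolynomial.finSuccEquiv ℂ N P with hQ
    have hQ0 : Q ≠ 0 := by
      intro h
      exact hP ((MvPolynomial.finSuccEquiv ℂ N).injective (by rw [map_zero]; exact h))
    set c := Q.leadingCoeff with hc
    have hc0 : c ≠ 0 := Polynomial.leadingCoeff_ne_zero.2 hQ0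
    have hdeg : c.totalDegree + Q.natDegree ≤ P.totalDegree :=
      MvPolynomial.totalDegree_coeff_finSuccEquiv_add_le P Q.natDegree hc0
    have hdeg' : (c.totalDegree : ℝ) + Q.natDegree ≤ P.totalDegree := by exact_mod_cast hdeg
    have htc : t * c.totalDegree < 1 := by
      have : (0 : ℝ) ≤ Q.natDegree := by positivity
      nlinarith
    have htQ : t * Q.natDegree < 1 := by
      have : (0 : ℝ) ≤ c.totalDegree := by positivity
      nlinarith
    obtain ⟨C, hC, hbound⟩ := exists_bound_poly ht.le htQ R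
    have hIH := ih c hc0 htc
    -- change of variables
    have hmp := volume_preserving_piFinSuccAbove (fun _ : Fin (N + 1) => ℂ) 0
    have hmeas : Measurable fun x : Fin (N + 1) → ℂ => (‖MvPolynomial.eval x P‖ₑ) ^ (-2 * t) :=
      (measurable_enorm.comp (measurable_eval P)).pow_const _
    have h1 := hmp.symm.setLIntegral_comp_preimage
      (s := Set.pi univ fun _ : Fin (N + 1) => closedBall (0 : ℂ) R)
      (MeasurableSet.univ_pi fun _ => measurableSet_closedBall) hmeas
    rw [← h1]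
    have hpre : (MeasurableEquiv.piFinSuccAbove (fun _ : Fin (N + 1) => ℂ) 0).symm ⁻¹'
        (Set.pi univ fun _ : Fin (N + 1) => closedBall (0 : ℂ) R) =
        (closedBall (0 : ℂ) R) ×ˢ (Set.pi univ fun _ : Fin N => closedBall (0 : ℂ) R) := by
      ext ⟨a, b⟩
      simp only [mem_preimage, mem_pi, mem_univ, true_implies, mem_prod]
      rw [Fin.forall_iff_succ]
      rfl
    rw [hpre]
    have hval : ∀ p : ℂ × (Fin N → ℂ), MvPolynomial.eval
        ((MeasurableEquiv.piFinSuccAbove (fun _ : Fin (N + 1) => ℂ) 0).symm p) P =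
        Polynomial.eval p.1 (Polynomial.map (MvPolynomial.eval p.2) Q) := by
      intro p
      rw [hQ, ← MvPolynomial.eval_eq_eval_mv_eval']
      congr 2
      simp [MeasurableEquiv.piFinSuccAbove, Fin.insertNthEquiv]
    have hmeas2 : Measurable fun p : ℂ × (Fin N → ℂ) => (‖MvPolynomial.eval
        ((MeasurableEquiv.piFinSuccAbove (fun _ : Fin (N + 1) => ℂ) 0).symm p) P‖ₑ) ^ (-2 * t) :=
      hmeas.comp (MeasurableEquiv.measurable _)
    rw [Measure.volume_eq_prod, ← Measure.prod_restrict, lintegral_prod_symm _ hmeas2.aemeasurable]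
    have hinner : ∀ x' : Fin N → ℂ, ∫⁻ z in closedBall (0 : ℂ) R, (‖MvPolynomial.eval
        ((MeasurableEquiv.piFinSuccAbove (fun _ : Fin (N + 1) => ℂ) 0).symm (z, x')) P‖ₑ) ^ (-2 * t)
        ≤ (‖MvPolynomial.eval x' c‖ₑ) ^ (-2 * t) * (C + 1) := by
      intro x'
      by_cases hx : MvPolynomial.eval x' c = 0
      · rw [hx, enorm_zero, ENNReal.zero_rpow_of_neg (by linarith),
          ENNReal.top_mul (by simp)]
        exact le_top
      · have hlead : (Polynomial.map (MvPolynomial.eval x') Q).natDegree = Q.natDegree :=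
          Polynomial.natDegree_map_of_leadingCoeff_ne_zero _ hx
        have hlc : (Polynomial.map (MvPolynomial.eval x') Q).leadingCoeff =
            MvPolynomial.eval x' c := by
          rw [Polynomial.leadingCoeff_map_of_leadingCoeff_ne_zero _ hx]
        have hne : Polynomial.map (MvPolynomial.eval x') Q ≠ 0 := by
          rw [← Polynomial.leadingCoeff_ne_zero, hlc]
          exact hx
        simp only [hval]
        refine (hbound _ hlead hne).trans ?_
        rw [hlc]
        exact mul_le_mul_right le_self_add _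
    refine lt_of_le_of_lt (lintegral_mono hinner) ?_
    rw [lintegral_mul_const' _ _ (ENNReal.add_lt_top.2 ⟨hC, ENNReal.one_lt_top⟩).ne]
    exact ENNReal.mul_lt_top hIH (ENNReal.add_lt_top.2 ⟨hC, ENNReal.one_lt_top⟩)

end Vale.Agent.P271.H242
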